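import Vale.Agent.P159.H873.Main

open Filter Topology Vale.Agent.P159

namespace Vale.Agent.Results.P159.HelicityModulus

/-- The helicity modulus of the square-lattice XY model: existence as a limit of block
stiffnesses, the universal jump, the renormalisation inequality for the dependence on the inverse
temperature, strict monotonicity in the massless phase with an explicit lower bound, power law
upper bounds for the correlations of any number of integer charges, and lower bounds for the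
correlation length. -/
theorem result :
    ((∀ b : ℝ, 0 < b →
      (∀ x : ℤ × ℤ, Tendsto (fun R : ℕ => corr R b x) atTop (𝓝 (corrInf b x))) ∧
      Tendsto (fun r : ℕ => -(1 / (r : ℝ)) * Real.log (corrInf b ((r : ℤ), 0))) atTop
        (𝓝 (mass b)) ∧ 0 ≤ mass b) ∧
    (∀ b : ℝ, 0 < b →
      (mass b = 0 → 2 / Real.pi ≤ helicity b ∧ ∀ l : ℕ, 1 ≤ l → 2 / Real.pi ≤ stiff l b) ∧
      (0 < mass b → helicity b = 0 ∧ ∃ C : ℝ, ∀ l : ℕ, 1 ≤ l → stiff l b ≤ C / l)) ∧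
    (0 < bCrit → mass bCrit = 0 ∧ 2 / Real.pi ≤ helicity bCrit ∧
      ∀ b : ℝ, 0 < b → b < bCrit → 0 < mass b ∧ helicity b = 0) ∧
    (∀ b : ℝ, 0 < b → stiff 1 b = b ∧ (∀ l : ℕ, 2 ≤ l → stiff l b < b) ∧
      ∀ l n : ℕ, 1 ≤ l → 1 ≤ n → 0 ≤ stiff (l * n) b ∧ stiff (l * n) b ≤ stiff l b) ∧
    (∀ b : ℝ, 0 < b → ∀ l : ℕ, 1 ≤ l → ∃ K : ℝ, ∀ r : ℕ, 1 ≤ r →
      corrInf b ((r : ℤ), 0) ≤ K * (r : ℝ) ^ (-(1 / (2 * Real.pi * stiff l b)))) ∧
    (∀ l : ℕ, 1 ≤ l → ∀ ν : ℝ, ν < 1 / (2 - 1 / (2 * Real.pi * stiff l bCrit)) →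
      ∃ c δ : ℝ, 0 < c ∧ 0 < δ ∧ ∀ b : ℝ, 0 < b → bCrit - δ < b → b < bCrit →
        c * (bCrit - b) ^ (-ν) ≤ corrLength b) ∧
    (∀ b : ℝ, 0 < b → b < bCrit →
      Summable (corrInf b) ∧
      1 / (2 * (bCrit - b)) ≤ ∑' x : ℤ × ℤ, corrInf b x ∧
      1 / 4 * Real.sqrt (1 / (bCrit - b) - 2) ≤ corrLength b)) ∧
    -- the renormalisation inequality
    (∀ l : ℕ, 1 ≤ l → ∀ b b' : ℝ, 0 < b → b ≤ b' →
      0 < stiff l b ∧ 1 / stiff l b' - 1 / b' ≤ 1 / stiff l b - 1 / b) ∧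
    -- the helicity modulus is the limit of the stiffnesses, nondecreasing and right-continuous
    (∀ b : ℝ, 0 < b → Tendsto (fun l : ℕ => stiff l b) atTop (𝓝 (helicity b)) ∧
      ContinuousWithinAt helicity (Set.Ici b) b ∧ ∀ b' : ℝ, b ≤ b' → helicity b ≤ helicity b') ∧
    -- above a massless point `c` (for example `c = bCrit`, if `0 < bCrit`)
    (∀ c : ℝ, 0 < c → mass c = 0 → StrictMonoOn helicity (Set.Ici c) ∧ ∀ b : ℝ, c ≤ b →
      mass b = 0 ∧ 0 < Real.pi / 2 - 1 / c + 1 / b ∧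
      1 / (Real.pi / 2 - 1 / c + 1 / b) ≤ helicity b ∧
      ∀ b' : ℝ, b ≤ b' → 1 / helicity b' - 1 / b' ≤ 1 / helicity b - 1 / b) ∧
    -- decay of the two-point function, of the correlations of integer charges `m j` at sites `x j`
    -- with distances at least `d j` to the other sites, and the correlation length, in terms of the
    -- helicity modulus
    (∀ b η : ℝ, 0 < b → η * (2 * Real.pi * helicity b) < 1 → ∃ K : ℝ, ∀ x : ℤ × ℤ, x ≠ 0 →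
      corrInf b x ≤ K * ((max |x.1| |x.2| : ℤ) : ℝ) ^ (-η)) ∧
    (∀ b κ : ℝ, 0 < b → κ * (4 * Real.pi * helicity b) < 1 → ∀ (k : ℕ) (m : Fin k → ℤ),
      ∃ K : ℝ, ∀ (x : Fin k → ℤ × ℤ) (d : Fin k → ℕ), (∀ j, 1 ≤ d j) →
        (∀ i j, i ≠ j → (d i : ℤ) ≤ max |(x i - x j).1| |(x i - x j).2|) →
        ∃ c : ℝ, Tendsto (fun R : ℕ => expect (boxEnergy R b)
            fun θ => Real.Angle.cos (∑ j, m j • ext θ (x j))) atTop (𝓝 c) ∧ 0 ≤ c ∧
          c ≤ K * ∏ j, (d j : ℝ) ^ (-(κ * (m j : ℝ) ^ 2))) ∧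
    (0 < bCrit → ∀ ν : ℝ, ν < 1 / (2 - 1 / (2 * Real.pi * helicity bCrit)) →
      ∃ c δ : ℝ, 0 < c ∧ 0 < δ ∧ ∀ b : ℝ, 0 < b → bCrit - δ < b → b < bCrit →
        c * (bCrit - b) ^ (-ν) ≤ corrLength b) :=
  ⟨Vale.Agent.P159.H873.old, Vale.Agent.P159.H873.new⟩

end Vale.Agent.Results.P159.HelicityModulus
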