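import Vale.Agent.P159.H260.Series

open Filter Topology Vale.Agent.P159

namespace Vale.Agent.Results.P159.LocalObservables

/-- The square-lattice XY model: existence of the helicity modulus, the universal jump, its strict
monotonicity in the massless phase, lower bounds for the correlation length, and power law upper
bounds, with a constant that does not depend on the observables, for the expectation of products
of arbitrary local observables at distant sites. -/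
theorem result :
    -- the statement of the Starting point file `UniversalJump`
    ((∀ b : ℝ, 0 < b →
      (∀ x : ℤ × ℤ, Tendsto (fun R : ℕ => corr R b x) atTop (𝓝 (corrInf b x))) ∧
      Tendsto (fun r : ℕ => -(1 / (r : ℝ)) * Real.log (corrInf b ((r : ℤ), 0))) atTop
        (𝓝 (mass b)) ∧ 0 ≤ mass b) ∧
    (∀ b : ℝ, 0 < b →
      (mass b = 0 → 2 / Real.pi ≤ helicity b ∧ ∀ l : ℕ, 1 ≤ l → 2 / Real.pi ≤ stiff l b) ∧
      (0 < mass b → helicity b = 0 ∧ ∃ C : ℝ, ∀ l : ℕ, 1 ≤ l → stiff l b ≤ C / l)) ∧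
    (0 < bCrit → mass bCrit = 0 ∧ 2 / Real.pi ≤ helicity bCrit ∧
      ∀ b : ℝ, 0 < b → b < bCrit → 0 < mass b ∧ helicity b = 0) ∧
    (∀ b : ℝ, 0 < b → stiff 1 b = b ∧ (∀ l : ℕ, 2 ≤ l → stiff l b < b) ∧
      ∀ l n : ℕ, 1 ≤ l → 1 ≤ n → 0 ≤ stiff (l * n) b ∧ stiff (l * n) b ≤ stiff l b) ∧
    (∀ b : ℝ, 0 < b → ∀ l : ℕ, 1 ≤ l → ∃ K : ℝ, ∀ r : ℕ, 1 ≤ r →
      corrInf b ((r : ℤ), 0) ≤ K * (r : ℝ) ^ (-(1 / (2 * Real.pi * stiff l b)))) ∧
    (∀ l : ℕ, 1 ≤ l → ∀ ν : ℝ, ν < 1 / (2 - 1 / (2 * Real.pi * stiff l bCrit)) →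
      ∃ c δ : ℝ, 0 < c ∧ 0 < δ ∧ ∀ b : ℝ, 0 < b → bCrit - δ < b → b < bCrit →
        c * (bCrit - b) ^ (-ν) ≤ corrLength b) ∧
    (∀ b : ℝ, 0 < b → b < bCrit →
      Summable (corrInf b) ∧
      1 / (2 * (bCrit - b)) ≤ ∑' x : ℤ × ℤ, corrInf b x ∧
      1 / 4 * Real.sqrt (1 / (bCrit - b) - 2) ≤ corrLength b)) ∧
    -- the renormalisation inequality
    (∀ l : ℕ, 1 ≤ l → ∀ b b' : ℝ, 0 < b → b ≤ b' →
      0 < stiff l b ∧ 1 / stiff l b' - 1 / b' ≤ 1 / stiff l b - 1 / b) ∧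
    -- the helicity modulus is the limit of the stiffnesses, nondecreasing and right-continuous
    (∀ b : ℝ, 0 < b → Tendsto (fun l : ℕ => stiff l b) atTop (𝓝 (helicity b)) ∧
      ContinuousWithinAt helicity (Set.Ici b) b ∧ ∀ b' : ℝ, b ≤ b' → helicity b ≤ helicity b') ∧
    -- above a massless point `c` (for example `c = bCrit`, if `0 < bCrit`)
    (∀ c : ℝ, 0 < c → mass c = 0 → StrictMonoOn helicity (Set.Ici c) ∧ ∀ b : ℝ, c ≤ b →
      mass b = 0 ∧ 0 < Real.pi / 2 - 1 / c + 1 / b ∧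
      1 / (Real.pi / 2 - 1 / c + 1 / b) ≤ helicity b ∧
      ∀ b' : ℝ, b ≤ b' → 1 / helicity b' - 1 / b' ≤ 1 / helicity b - 1 / b) ∧
    -- the correlation length in terms of the helicity modulus
    (0 < bCrit → ∀ ν : ℝ, ν < 1 / (2 - 1 / (2 * Real.pi * helicity bCrit)) →
      ∃ c δ : ℝ, 0 < c ∧ 0 < δ ∧ ∀ b : ℝ, 0 < b → bCrit - δ < b → b < bCrit →
        c * (bCrit - b) ^ (-ν) ≤ corrLength b) ∧
    -- products of local observables `f j` with absolutely convergent Fourier series and no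
    -- frequency below `q j`, at sites `x j` with distances at least `d j` to the other sites, in
    -- every box and in infinite volume; the constant `K` does not depend on the observables
    (∀ b κ : ℝ, 0 < b → 0 ≤ κ → κ * (4 * Real.pi * helicity b) < 1 →
      ∀ (k : ℕ) (q : Fin k → ℕ), ∃ K : ℝ, 0 < K ∧ ∀ f : Fin k → C(T, ℝ),
      (∀ j, Summable fun n : ℤ => ‖H260.fc (f j) n‖) →
      (∀ j (n : ℤ), |n| < q j → H260.fc (f j) n = 0) →
      ∀ (x : Fin k → ℤ × ℤ) (d : Fin k → ℕ), (∀ j, 1 ≤ d j) →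
        (∀ i j, i ≠ j → (d i : ℤ) ≤ max |(x i - x j).1| |(x i - x j).2|) →
        (∀ R : ℕ, (∀ j, x j ∈ box R) →
          |expect (boxEnergy R b) fun θ => ∏ j, f j (ext θ (x j))| ≤
            K * (∏ j, ∑' n : ℤ, ‖H260.fc (f j) n‖) * ∏ j, (d j : ℝ) ^ (-(κ * (q j : ℝ) ^ 2))) ∧
        ∃ c : ℝ, Tendsto (fun R : ℕ => expect (boxEnergy R b)
            fun θ => ∏ j, f j (ext θ (x j))) atTop (𝓝 c) ∧
          |c| ≤ K * (∏ j, ∑' n : ℤ, ‖H260.fc (f j) n‖) *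
            ∏ j, (d j : ℝ) ^ (-(κ * (q j : ℝ) ^ 2))) :=
  ⟨H873.old, H873.new.1, H873.new.2.1, H873.new.2.2.1, H873.new.2.2.2.2.2,
    fun _ _ hb hκ0 hκ k q => H260.local_series hb hκ0 hκ k q⟩

end Vale.Agent.Results.P159.LocalObservables
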